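import Vale.Agent.P355.H70.AAB4.D

namespace Vale.Agent.P355.H70.AAB4

open Vale.Agent.P355 Vale.Agent.P355.H147 Vale.Agent.P355.H998.E

theorem c0 : CX 4 0 0 D cls mv 0 (Nat.add 0 6) := CX.ck 0 6 (by decide +kernel)

theorem c6 : CX 4 0 0 D cls mv 6 (Nat.add 6 6) := CX.ck 6 6 (by decide +kernel)

theorem c12 : CX 4 0 0 D cls mv 12 (Nat.add 12 8) := CX.ck 12 8 (by decide +kernel)

theorem c20 : CX 4 0 0 D cls mv 20 (Nat.add 20 10) := CX.ck 20 10 (by decide +kernel)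

theorem c30 : CX 4 0 0 D cls mv 30 (Nat.add 30 24) := CX.ck 30 24 (by decide +kernel)

theorem cm0 : CX 4 0 0 D cls mv 0 54 := ((c0).trans (c6)).trans ((c12).trans ((c20).trans (c30)))

end Vale.Agent.P355.H70.AAB4
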