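import Vale.Agent.P355.H70.AAB4.T
import Vale.Agent.P355.H70.AAB4.V0

namespace Vale.Agent.P355.H70.AAB4

open Vale.Agent.P355 Vale.Agent.P355.H147 Vale.Agent.P355.H998.E

theorem hP0 : Ch t true 0 54 0 P0 :=
  Ch.ckG (TT := 2) (rw := 40) tok rfl (by decide +kernel) true 54 0 54 _ _ (by decide +kernel)

theorem hQ0 : Ch t false 0 54 0 Q0 :=
  Ch.ckG (TT := 2) (rw := 40) tok rfl (by decide +kernel) false 54 0 54 _ _ (by decide +kernel)


end Vale.Agent.P355.H70.AAB4
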